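import Vale.Agent.P280C66.Loc

/-!
# P280C66: algebraic frames of a quotient line bundle
-/

open scoped Manifold ContDiff Topology
open Matrix Filter Set
open Vale.Agent.P272.K Vale.Agent.P285.H281.FD Vale.Agent.P300.Final Vale.Agent.P299G40
open Vale.Agent.P280Z (QuoC)
open Vale.Agent.P009.AV (aff)

noncomputable section

namespace Vale.Agent.P280A

open C66

theorem C66.rel {ι κ : Type} [Fintype κ] [DecidableEq κ] {T T' : Matrix ι κ ℂ} {β β' : κ → ℂ}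
    {ρ ρ' g : ℂ} (h' : ρ' ≠ 0) (h : ρ ≠ 0)
    (k : ∀ v, ∃ u, ρ' • T' *ᵥ v = ρ • T *ᵥ u ∧ β' ⬝ᵥ v = g * β ⬝ᵥ u) :
    ∃ μ : ℂ, plu T' β' = μ • plu T β := by
  choose u u1 u2 using fun j : κ => k (Pi.single j 1)
  have e1 : T' = T * of fun a b => ρ / ρ' * u b a := by
    ext a b
    have := congrFun (u1 b) a
    simp only [mulVec_single_one, Pi.smul_apply, smul_eq_mul, col_apply] at this
    simp only [mul_apply, of_apply, mul_left_comm (T _ _), ← Finset.mul_sum]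
    rw [div_mul_eq_mul_div, eq_div_iff h', mul_comm]
    exact this
  have e2 : β' = (g * ρ' / ρ) • β ᵥ* of fun a b => ρ / ρ' * u b a := by
    ext b
    have := u2 b
    rw [dotProduct_single_one] at this
    simp only [this, vecMul, dotProduct, of_apply, mul_left_comm (β _), ← Finset.mul_sum,
      Pi.smul_apply, smul_eq_mul]
    field_simp
  exact ⟨_, by rw [e1, e2, plu_mul]⟩

/-- **COV** -/
theorem cov (hT : TAN) (hM : MAP) : COV := by
  intro n N K Z X _ _ _ Φ S _ _ _ _ _ _ Θ f L α hZ hA hi hΘ hf hL hα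
  obtain ⟨A, A1, A2⟩ := exA hT hZ hA hα
  choose J hJ using fun x : X => Function.ne_iff.1 (Φ x).rep_nonzero
  choose b hb using hL.cover
  have hΦ := hA.2.1
  have hz : ∀ c, Φ (f c) ∈ Z := fun c => hA.2.2 ▸ mem_range_self _
  have b0 : ∀ e a c, At e (f c) → c ∈ L.U a → ext0 (α e a c) ≠ 0 := fun e a c he ha h =>
    hα.nz e a c he ha (funext fun l => congrFun h (some l))
  have nz : ∀ a c, c ∈ L.U a → ∃ w ∈ tangent Z (Φ (f c)), A a c w ≠ 0 := fun a c ha => by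
    obtain ⟨k, hk⟩ := Function.ne_iff.1 (b0 _ a c (at_ch _) ha)
    exact ⟨_, (tan1 hT hZ hA (at_ch _) (hJ _) _).2 ⟨Pi.single k 1, rfl⟩, by
      rwa [A2 _ _ a c (at_ch _) (hJ _) ha, dotProduct_single_one]⟩
  have hH : ∀ a c, c ∈ L.U a → ∀ w ∈ tangent Z (Φ (f c)),
      w ∈ tangent Z (Φ (f c)) ⊓ LinearMap.ker (A (b c) c) ↔ A a c w = 0 := fun a c ha w hw => by
    rw [A1 a _ c w ha (hb c), mul_eq_zero_iff_left (hL.ne_zero _ _ c ha (hb c))]
    exact and_iff_right hw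
  refine ⟨fun c => tangent Z (Φ (f c)) ⊓ LinearMap.ker (A (b c) c), fun a c => A a c,
    fun c => ?_, hH, A1, fun c₀ => ?_⟩
  · have h1 : (Φ (f c)).rep = (Φ (f c)).rep (J (f c)) •
        Tm Φ (chartAt (Cm n) (f c)) (J (f c)) (f c) *ᵥ fun k => k.elim 1 0 := by
      rw [Tm_mul (hJ _)]
      simp [← Pi.zero_def]
    obtain ⟨w, w1, w2⟩ := nz _ c (hb c)
    refine ⟨hz c, ⟨(tan1 hT hZ hA (at_ch _) (hJ _) _).2 ⟨_, h1⟩, ?_⟩, inf_le_left,
      rk (hZ.smooth _ (hz c)) w1 w2⟩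
    refine (congrArg _ h1).trans ((A2 _ _ _ c (at_ch _) (hJ _) (hb c) _).trans ?_)
    rw [ext0_dot]
    exact dotProduct_zero _
  obtain ⟨M, hM'⟩ := Nat.exists_eq_succ_of_ne_zero (Fintype.card_ne_zero
    (α := (Option (Fin n) → Fin (N + 1)) × Option (Fin n)))
  let ε := Fintype.equivFinOfCardEq hM'
  let pl := fun e i a c => plu (Tm Φ e i (f c)) (ext0 (α e a c))
  have p0 : ∀ e i a c, At e (f c) → (Φ (f c)).rep i ≠ 0 → c ∈ L.U a → pl e i a c ≠ 0 :=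
    fun e i a c he h ha => plu_ne _ (tan2 hT hZ hA he h) (b0 e a c he ha)
  have p1 : ∀ e i a c, At e (f c) → (Φ (f c)).rep i ≠ 0 → c ∈ L.U a →
      pl e i a c ∘ ε.symm ≠ 0 := fun e i a c he h ha k =>
    p0 e i a c he h ha (funext fun q => by simpa using congrFun k (ε q))
  have p2 : ∀ e i a c, At e (f c) → (Φ (f c)).rep i ≠ 0 → c ∈ L.U a →
      ∃ μ : ℂ, pl (chartAt (Cm n) (f c)) (J (f c)) (b c) c = μ • pl e i a c :=
    fun e i a c he h ha => C66.rel (g := L.g (b c) a c) (hJ (f c)) h fun v => by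
      obtain ⟨u, hu⟩ := (tan1 hT hZ hA he h _).1 ((tan1 hT hZ hA (at_ch _) (hJ _) _).2 ⟨v, rfl⟩)
      exact ⟨u, hu, by rw [← A2 _ _ _ c (at_ch _) (hJ _) (hb c), A1 _ a c _ (hb c) ha, hu,
        A2 e i a c he h ha]⟩
  have ev : ∀ (e : Chart n X) i a p, At e (f p) → (Φ (f p)).rep i ≠ 0 → p ∈ L.U a →
      ∀ᶠ c in 𝓝 p, At e (f c) ∧ (Φ (f c)).rep i ≠ 0 ∧ c ∈ L.U a := fun e i a p he h ha => by
    filter_upwards [hf.continuous.continuousAt.eventually (e.open_source.mem_nhds he.2),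
      hf.continuous.continuousAt.eventually (ev_ne hΦ h), (hL.isOpen a).mem_nhds ha] with c x y z
    exact ⟨⟨he.1, x⟩, y, z⟩
  let Ψ : S → PN M := fun c => Projectivization.mk ℂ _ (p1 _ _ _ c (at_ch _) (hJ _) (hb c))
  have p3 : ∀ e i a c he h ha, Ψ c = Projectivization.mk ℂ _ (p1 e i a c he h ha) :=
    fun e i a c he h ha => by
      obtain ⟨μ, hμ⟩ := p2 e i a c he h ha
      exact (Projectivization.mk_eq_mk_iff' _ _ _ _ _).2 ⟨μ, by rw [hμ]; rfl⟩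
  obtain ⟨φ, φ1, φ2⟩ := hM 1 K M S Θ Ψ hi hΘ fun p =>
    ⟨fun c => pl (chartAt (Cm n) (f p)) (J (f p)) (b p) c ∘ ε.symm, fun c hc => AnalyticAt.pi
      fun q => an_plu hΦ hf hα (at_ch _) (hJ _) (hb p) _ c hc,
      (ev _ _ _ p (at_ch _) (hJ _) (hb p)).mono fun c h => ⟨_, p3 _ _ _ c h.1 h.2.1 h.2.2⟩⟩
  obtain ⟨F, d, F1, F2, F3⟩ := φ1 _ ⟨c₀, rfl⟩
  obtain ⟨I, hI⟩ := exists_minor _ (tan2 hT hZ hA (at_ch (f c₀)) (hJ _))
  obtain ⟨l, hl⟩ := Function.ne_iff.1 (Θ c₀).rep_nonzero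
  let P : Fin (N + 1) → MvPolynomial (Fin (K + 1)) ℂ := fun j =>
    ∑ k, if I k = j then F (ε (I, k)) else 0
  have G : ∀ e i a c, At e (f c) → (Φ (f c)).rep i ≠ 0 → c ∈ L.U a → ∃ μ : ℂ,
      val F (Θ c) = μ • pl e i a c ∘ ε.symm ∧ ∀ w ∈ tangent Z (Φ (f c)), val P (Θ c) ⬝ᵥ w =
        μ * (Φ (f c)).rep i * ((Tm Φ e i (f c)).submatrix I id).det * A a c w :=
    fun e i a c he h ha => by
      obtain ⟨μ, hμ⟩ : ∃ μ : ℂ, μ • pl e i a c ∘ ε.symm = val F (Θ c) := by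
        by_cases k : val F (Θ c) = 0
        · exact ⟨0, by rw [k, zero_smul]⟩
        · exact (Projectivization.mk_eq_mk_iff' _ _ _ _ _).1
            ((F3 _ ⟨c, rfl⟩ k).symm.trans ((φ2 c).trans (p3 e i a c he h ha)))
      refine ⟨μ, hμ.symm, fun w hw => ?_⟩
      obtain ⟨u, rfl⟩ := (tan1 hT hZ hA he h w).1 hw
      have k : ∀ q, MvPolynomial.eval (Θ c).rep (F (ε q)) = μ * pl e i a c q := fun q => by
        simpa [val] using (congrFun hμ (ε q)).symm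
      rw [A2 e i a c he h ha, mul_assoc, ← plu_dot, Finset.mul_sum]
      simp only [dotProduct, val, P, map_sum, apply_ite, map_zero, Finset.sum_mul, ite_mul,
        zero_mul, k]
      rw [Finset.sum_comm]
      refine Finset.sum_congr rfl fun k _ => ?_
      rw [Finset.sum_ite_eq, if_pos (Finset.mem_univ _), Pi.smul_apply, smul_eq_mul]
      ring
  let Y : Set S := {c | (∀ w ∈ tangent Z (Φ (f c)), val P (Θ c) ⬝ᵥ w = 0) ∨
    (Θ c).rep l ^ d * (Φ (f c)).rep (J (f c₀)) = 0}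
  have y0 : c₀ ∉ Y := by
    obtain ⟨μ, m1, m2⟩ := G _ _ _ c₀ (at_ch _) (hJ _) (hb c₀)
    obtain ⟨w, w1, w2⟩ := nz _ c₀ (hb c₀)
    rintro (h | h)
    · exact mul_ne_zero (mul_ne_zero (mul_ne_zero (fun k => F2 (by rw [m1, k, zero_smul]))
        (hJ _)) hI) w2 ((m2 w w1).symm.trans (h w w1))
    · exact mul_ne_zero (pow_ne_zero _ hl) (hJ _) h
  have loc : ∀ p a, p ∈ L.U a → ∃ g h, An g p ∧ An h p ∧ ∀ᶠ c in 𝓝 p,
      (c ∈ Y ↔ g c * h c = 0) ∧ (c ∉ Y → ∀ w ∈ tangent Z (Φ (f c)), val P (Θ c) ⬝ᵥ w /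
        ((Θ c).rep l ^ d * (Φ (f c)).rep (J (f c₀))) = g c / h c * A a c w) := fun p a ha => by
    obtain ⟨q, hq⟩ := Function.ne_iff.1 (p0 _ _ a p (at_ch _) (hJ _) ha)
    obtain ⟨l', hl'⟩ := Function.ne_iff.1 (Θ p).rep_nonzero
    have a1 := an_plu hΦ hf hα (at_ch _) (hJ _) ha q
    have a2 := an_aff (f := id) hΘ contMDiff_id (p := p) hl'
    refine ⟨_, _, (An.eval a2 (F (ε q))).mul (An.det (M := fun c =>
      (Tm Φ (chartAt (Cm n) (f p)) (J (f p)) (f c)).submatrix I id) fun j k =>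
        an_Tm hΦ hf (at_ch _) (hJ _) _ _), (a1.mul ((a2 l).pow d)).mul
          (an_aff hΦ hf (hJ _) (J (f c₀))), ?_⟩
    filter_upwards [ev _ _ a p (at_ch _) (hJ _) ha, a1.cont.eventually_ne hq, ev_ne hΘ hl']
      with c ⟨he, h, hc⟩ h1 h2
    obtain ⟨μ, m1, m2⟩ := G _ _ a c he h hc
    obtain ⟨w, w1, w2⟩ := nz a c hc
    have k : MvPolynomial.eval (Θ c).rep (F (ε q)) =
        μ * pl (chartAt (Cm n) (f p)) (J (f p)) a c q := by simpa [val] using congrFun m1 (ε q)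
    rw [Pi.zero_apply] at h1
    rw [P299G50.eval_aff (F1 _), id, k]
    simp only [aff, pl, div_pow, inv_pow]
    have h3 := pow_ne_zero d h2
    refine ⟨?_, fun hy v hv => ?_⟩
    · have : (∀ w ∈ tangent Z (Φ (f c)), val P (Θ c) ⬝ᵥ w = 0) ↔ μ * (Φ (f c)).rep (J (f p)) *
          ((Tm Φ (chartAt (Cm n) (f p)) (J (f p)) (f c)).submatrix I id).det = 0 :=
        ⟨fun k => (mul_eq_zero_iff_right w2).1 ((m2 w w1).symm.trans (k w w1)),
          fun k w hw => by rw [m2 w hw, k, zero_mul]⟩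
      refine (or_congr_left this).trans ?_
      simp only [mul_eq_zero, div_eq_zero_iff, inv_eq_zero, h, h1, h3, or_false, false_or]
    · obtain ⟨h4, h5⟩ := mul_ne_zero_iff.1 (not_or.1 hy).2
      rw [m2 v hv]
      field_simp
  obtain ⟨y1, y2⟩ := fin_of y0 fun p => by
    obtain ⟨g, h, a1, a2, a3⟩ := loc p _ (hb p)
    exact ⟨_, a1.mul a2, a3.mono fun c k => k.1⟩
  refine ⟨P, d, l, J (f c₀), Y, fun j => MvPolynomial.IsHomogeneous.sum _ _ _ fun k _ => ?_, hl,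
    hJ _, y1, y0, fun c hc w hw => ?_, fun p a ha => ?_⟩
  · split_ifs
    exacts [F1 _, MvPolynomial.isHomogeneous_zero _ _ _]
  · obtain ⟨μ, -, m2⟩ := G _ _ _ c (at_ch _) (hJ _) (hb c)
    rw [hH _ c (hb c) w hw, m2 w hw, mul_eq_zero_iff_left fun k => hc (.inl fun v hv => by
      rw [m2 v hv, k, zero_mul])]
  obtain ⟨g, h, a1, a2, a3⟩ := loc p a ha
  obtain ⟨m, m1, m2⟩ := ord_div a1 a2 (((y2 p).and (nhdsWithin_le_nhds a3)).mono
    fun c k e => k.1 (k.2.1.2 e))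
  exact ⟨_, m, m1, fun e => m2 fun k => y0 (e ▸ a3.self_of_nhds.1.2 k),
    ((y2 p).and (nhdsWithin_le_nhds a3)).mono fun c k => k.2.2 k.1⟩

end Vale.Agent.P280A
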