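import Vale.Agent.P280A30.Rows

/-!
# P280C66: orders on Riemann surfaces, Pluecker coordinates
-/

open scoped Manifold ContDiff Topology
open Matrix Filter Set
open Vale.Agent.P272.K

noncomputable section

namespace Vale.Agent.P280A.C66

section an

variable {S : Type} [TopologicalSpace S] [ChartedSpace (Cm 1) S] {p : S}

/-- holomorphic at `p` -/
def An (h : S → ℂ) (p : S) : Prop :=
  ∀ e : Chart 1 S, At e p → AnalyticAt ℂ (fun z => h (e.symm z)) (e p)

theorem at_ch {n : ℕ} {X : Type} [TopologicalSpace X] [ChartedSpace (Cm n) X] (x : X) :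
    At (chartAt (Cm n) x) x := ⟨chart_mem_atlas _ _, mem_chart_source _ _⟩

theorem An.cont {h : S → ℂ} (hh : An h p) : ContinuousAt h p := by
  have h1 := (hh _ (at_ch p)).continuousAt.comp
    ((chartAt (Cm 1) p).continuousAt (mem_chart_source _ p))
  exact h1.congr (((chartAt (Cm 1) p).eventually_left_inverse (mem_chart_source _ p)).mono
    fun x hx => congrArg h hx)

theorem An.mul {g h : S → ℂ} (hg : An g p) (hh : An h p) : An (fun x => g x * h x) p :=
  fun e he => (hg e he).mul (hh e he)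

theorem An.pow {g : S → ℂ} (hg : An g p) (k : ℕ) : An (fun x => g x ^ k) p :=
  fun e he => (hg e he).pow k

theorem an_const (c : ℂ) : An (fun _ => c) p := fun _ _ => analyticAt_const

theorem An.det {ι : Type} [Fintype ι] [DecidableEq ι] {M : S → Matrix ι ι ℂ}
    (h : ∀ i j, An (fun x => M x i j) p) : An (fun x => (M x).det) p := fun e he => by
  simp only [Matrix.det_apply']
  exact Finset.analyticAt_fun_sum _ fun σ _ => analyticAt_const.mul
    (Finset.analyticAt_fun_prod _ fun i _ => h _ _ e he)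

theorem An.eval {ι : Type} {v : S → ι → ℂ} (h : ∀ i, An (fun x => v x i) p)
    (P : MvPolynomial ι ℂ) : An (fun x => MvPolynomial.eval (v x) P) p := fun e he => by
  induction P using MvPolynomial.induction_on with
  | C a => simpa using analyticAt_const
  | add P Q a b => simpa only [map_add] using a.fun_add b
  | mul_X P i a => simpa only [map_mul, MvPolynomial.eval_X] using a.fun_mul (h i e he)

theorem ne_coord : ∀ᶠ x in 𝓝[≠] p, chartAt (Cm 1) p x 0 - chartAt (Cm 1) p p 0 ≠ 0 := by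
  filter_upwards [self_mem_nhdsWithin, nhdsWithin_le_nhds (chart_source_mem_nhds (Cm 1) p)]
    with x h1 h2 h3
  refine h1 ((chartAt (Cm 1) p).injOn h2 (mem_chart_source _ p) (funext fun i => ?_))
  rw [Subsingleton.elim i 0]
  exact sub_eq_zero.1 h3

theorem An.fac {h : S → ℂ} (hh : An h p) : (∀ᶠ x in 𝓝 p, h x = 0) ∨ ∃ (m : ℕ) (u : S → ℂ),
    AnalyticAt ℂ (fun z => u ((chartAt (Cm 1) p).symm z)) (chartAt (Cm 1) p p) ∧ u p ≠ 0 ∧
      ∀ᶠ x in 𝓝 p, h x = u x * (chartAt (Cm 1) p x 0 - chartAt (Cm 1) p p 0) ^ m := by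
  set e := chartAt (Cm 1) p
  have hs : p ∈ e.source := mem_chart_source _ p
  have e1 : ∀ z : Cm 1, (fun _ => z 0) = z := fun z => funext fun i => by
    rw [Subsingleton.elim i 0]
  have h1 : AnalyticAt ℂ (fun t : ℂ => h (e.symm fun _ => t)) (e p 0) :=
    AnalyticAt.fun_comp (g := fun z => h (e.symm z)) (f := fun (t : ℂ) (_ : Fin 1) => t)
      (by rw [e1]; exact hh _ (at_ch p)) (AnalyticAt.pi fun _ => analyticAt_id)
  have c : Tendsto (fun x => e x 0) (𝓝 p) (𝓝 (e p 0)) :=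
    (continuous_apply 0).continuousAt.comp (e.continuousAt hs)
  by_cases h0 : ∀ᶠ t in 𝓝 (e p 0), h (e.symm fun _ => t) = 0
  · refine .inl ?_
    filter_upwards [c.eventually h0, e.eventually_left_inverse hs] with x a b
    rwa [e1, b] at a
  obtain ⟨m, g, g1, g2, g3⟩ := h1.exists_eventuallyEq_pow_smul_nonzero_iff.2 h0
  refine .inr ⟨m, fun x => g (e x 0), ?_, g2, ?_⟩
  · refine (AnalyticAt.fun_comp (g := g) (f := fun z : Cm 1 => z 0) g1
      ((ContinuousLinearMap.proj (R := ℂ) (φ := fun _ : Fin 1 => ℂ) 0).analyticAt _)).congr ?_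
    filter_upwards [e.eventually_right_inverse' hs] with z hz
    rw [hz]
  · filter_upwards [c.eventually g3, e.eventually_left_inverse hs] with x a b
    rwa [e1, b, smul_eq_mul, mul_comm] at a

theorem cont_of {u : S → ℂ}
    (h : AnalyticAt ℂ (fun z => u ((chartAt (Cm 1) p).symm z)) (chartAt (Cm 1) p p)) :
    ContinuousAt u p :=
  (h.continuousAt.comp ((chartAt (Cm 1) p).continuousAt (mem_chart_source _ p))).congr
    (((chartAt (Cm 1) p).eventually_left_inverse (mem_chart_source _ p)).mono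
      fun _ hx => congrArg u hx)

theorem neBot (p : S) : (𝓝[≠] p).NeBot := by
  have h := (chartAt (Cm 1) p).map_nhdsWithin_preimage_eq (mem_chart_source _ p)
    ({chartAt (Cm 1) p p}ᶜ)
  have h1 : (𝓝[≠] (chartAt (Cm 1) p p)).NeBot := inferInstance
  rw [← h, map_neBot_iff] at h1
  exact h1.mono (nhdsWithin_mono _ fun x hx e => hx (congrArg _ e))

theorem ord_div {g h : S → ℂ} (hg : An g p) (hh : An h p) (h0 : ∀ᶠ x in 𝓝[≠] p, g x * h x ≠ 0) :
    ∃ m, OrdAt (fun x => g x / h x) p m ∧ (g p * h p ≠ 0 → m = 0) := by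
  have := neBot p
  obtain a | ⟨m, u, u1, u2, u3⟩ := hg.fac
  · obtain ⟨x, x1, x2⟩ := (h0.and (nhdsWithin_le_nhds a)).exists
    exact (x1 (by rw [x2, zero_mul])).elim
  obtain a | ⟨k, v, v1, v2, v3⟩ := hh.fac
  · obtain ⟨x, x1, x2⟩ := (h0.and (nhdsWithin_le_nhds a)).exists
    exact (x1 (by rw [x2, mul_zero])).elim
  refine ⟨m - k, ⟨fun x => u x / v x, u1.div v1 ?_, div_ne_zero u2 v2, ?_⟩, fun e => ?_⟩
  · rwa [(chartAt (Cm 1) p).left_inv (mem_chart_source _ p)]
  · filter_upwards [nhdsWithin_le_nhds u3, nhdsWithin_le_nhds v3, ne_coord] with x a b c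
    rw [a, b, zpow_sub₀ c, zpow_natCast, zpow_natCast, mul_div_mul_comm]
  · rw [u3.self_of_nhds, v3.self_of_nhds, sub_self] at e
    have e1 : m = 0 := by_contra fun k => e (by simp [zero_pow k])
    have e2 : k = 0 := by_contra fun k => e (by simp [zero_pow k])
    simp [e1, e2]

theorem fin_of [CompactSpace S] [ConnectedSpace S] {Y : Set S} {c₀ : S} (h0 : c₀ ∉ Y)
    (h : ∀ p, ∃ g, An g p ∧ ∀ᶠ x in 𝓝 p, x ∈ Y ↔ g x = 0) :
    Y.Finite ∧ ∀ p, ∀ᶠ x in 𝓝[≠] p, x ∉ Y := by
  have h1 : ∀ p, p ∉ interior Y → ∀ᶠ x in 𝓝[≠] p, x ∉ Y := fun p hp => by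
    obtain ⟨g, g1, g2⟩ := h p
    obtain a | ⟨m, u, u1, u2, u3⟩ := g1.fac
    · exact (hp (mem_interior_iff_mem_nhds.2 ((a.and g2).mono fun x hx => hx.2.2 hx.1))).elim
    filter_upwards [nhdsWithin_le_nhds u3, nhdsWithin_le_nhds g2, ne_coord,
      nhdsWithin_le_nhds ((cont_of u1).eventually_ne u2)] with x a b c d e
    exact mul_ne_zero d (pow_ne_zero m c) (a.symm.trans (b.1 e))
  have h2 : IsClopen (interior Y) := ⟨⟨isOpen_iff_eventually.2 fun p hp => by
    filter_upwards [eventually_nhdsWithin_iff.1 (h1 p hp)] with x hx k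
    by_cases e : x = p
    · exact hp (e ▸ k)
    · exact hx e (interior_subset k)⟩, isOpen_interior⟩
  have h3 : ∀ p, ∀ᶠ x in 𝓝[≠] p, x ∉ Y := fun p => h1 p fun k =>
    h0 (interior_subset ((h2.eq_univ ⟨p, k⟩).ge (mem_univ c₀)))
  obtain ⟨t, -, ht⟩ := isCompact_univ.elim_nhds_subcover _ fun p _ =>
    eventually_nhdsWithin_iff.1 (h3 p)
  refine ⟨t.finite_toSet.subset fun x hx => ?_, h3⟩
  obtain ⟨q, q1, q2⟩ := mem_iUnion₂.1 (ht (mem_univ x))
  exact (by_contra fun e => q2 e hx : x = q) ▸ q1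

end an

section lin

variable {ι κ : Type} [Fintype κ] [DecidableEq κ]

/-- the coordinates of the kernel of `β` -/
def plu (T : Matrix ι κ ℂ) (β : κ → ℂ) (q : (κ → ι) × κ) : ℂ :=
  ((T.submatrix q.1 id).updateRow q.2 β).det

theorem plu_dot (T : Matrix ι κ ℂ) (β : κ → ℂ) (I : κ → ι) (u : κ → ℂ) :
    ∑ k, plu T β (I, k) * (T *ᵥ u) (I k) = (T.submatrix I id).det * (β ⬝ᵥ u) := by
  have h1 : (fun k => plu T β (I, k)) = cramer (T.submatrix I id)ᵀ β :=
    funext fun k => (cramer_transpose_apply _ _ _).symm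
  change (fun k => plu T β (I, k)) ⬝ᵥ (T.submatrix I id *ᵥ u) = _
  rw [h1, dotProduct_mulVec, ← mulVec_transpose, mulVec_cramer, det_transpose, smul_dotProduct,
    smul_eq_mul]

theorem plu_mul (T : Matrix ι κ ℂ) (β : κ → ℂ) (G : Matrix κ κ ℂ) (g : ℂ) :
    plu (T * G) (g • β ᵥ* G) = (g * G.det) • plu T β := by
  ext q
  have : ((T * G).submatrix q.1 id).updateRow q.2 (β ᵥ* G) =
      (T.submatrix q.1 id).updateRow q.2 β * G := by
    ext a b
    by_cases h : a = q.2 <;> simp [h, mul_apply, vecMul, dotProduct]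
  simp only [plu, det_updateRow_smul, this, det_mul, Pi.smul_apply, smul_eq_mul]
  ring

theorem exists_minor [Fintype ι] (T : Matrix ι κ ℂ) (h : ∀ u, T *ᵥ u = 0 → u = 0) :
    ∃ I : κ → ι, (T.submatrix I id).det ≠ 0 := by
  have h1 : Submodule.span ℂ (range T.row) = ⊤ := by
    apply Submodule.eq_top_of_finrank_eq
    rw [← rank_eq_finrank_span_row, rank, LinearMap.finrank_range_of_inj
      (LinearMap.ker_eq_bot.1 (LinearMap.ker_eq_bot'.2 h))]
  obtain ⟨s, s1, s2, s3⟩ := exists_linearIndependent ℂ (range T.row)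
  let b := Module.Basis.mk s3 (by rw [Subtype.range_coe, s2, h1])
  let e : κ ≃ s := (Pi.basisFun ℂ κ).indexEquiv b
  choose I hI using fun k => s1 (e k).2
  refine ⟨I, (isUnit_iff_isUnit_det _).1 (linearIndependent_rows_iff_isUnit.1 ?_) |>.ne_zero⟩
  have : (T.submatrix I id).row = fun k => (e k : κ → ℂ) := funext hI
  rw [this]
  exact s3.comp e e.injective

theorem plu_ne [Fintype ι] (T : Matrix ι κ ℂ) (h : ∀ u, T *ᵥ u = 0 → u = 0) {β : κ → ℂ}
    (hβ : β ≠ 0) : plu T β ≠ 0 := fun h0 => by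
  obtain ⟨I, hI⟩ := exists_minor T h
  refine hβ (funext fun k => ?_)
  have := plu_dot T β I (Pi.single k 1)
  simpa [h0, hI] using this

end lin

end Vale.Agent.P280A.C66
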