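import Vale.Agent.P280C66.Kit
import Vale.Agent.P299G50.Hol

/-!
# P280C66: frames of the tangent spaces
-/

open scoped Manifold ContDiff Topology
open Matrix Filter Set
open Vale.Agent.P272.K Vale.Agent.P285.H281.FD Vale.Agent.P300.Final Vale.Agent.P299G40
open Vale.Agent.P280Z (QuoC)
open Vale.Agent.P009.AV (aff)

noncomputable section

namespace Vale.Agent.P280A.C66

variable {n N : ℕ} {X : Type} [TopologicalSpace X] [ChartedSpace (Cm n) X] {Φ : X → PN N}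
  {e : Chart n X} {i : Fin (N + 1)} {x : X} {Z : Set (PN N)}

/-- a frame of the tangent space of the cone -/
def Tm (Φ : X → PN N) (e : Chart n X) (i : Fin (N + 1)) (x : X) :
    Matrix (Fin (N + 1)) (Option (Fin n)) ℂ :=
  of fun j k => k.elim (aff i (Φ x) j) fun l => dAff Φ e i x (Pi.single l 1) j

/-- extension by zero -/
def ext0 (b : Cm n) : Option (Fin n) → ℂ := fun k => k.elim 0 b

theorem ext0_dot (b : Cm n) (u : Option (Fin n) → ℂ) :
    ext0 b ⬝ᵥ u = b ⬝ᵥ fun l => u (some l) := by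
  simp [dotProduct, ext0, Fintype.sum_option]

theorem Tm_mul (hi : (Φ x).rep i ≠ 0) (u : Option (Fin n) → ℂ) :
    (Φ x).rep i • Tm Φ e i x *ᵥ u =
      u none • (Φ x).rep + (Φ x).rep i • dAff Φ e i x fun l => u (some l) := by
  have h : dAff Φ e i x (fun l => u (some l)) = ∑ l, u (some l) • dAff Φ e i x (Pi.single l 1) := by
    conv_lhs => rw [pi_eq_sum_univ' fun l => u (some l)]
    simp only [map_sum, map_smul]
  ext j
  simp only [h, Tm, aff, mulVec, dotProduct, Fintype.sum_option, of_apply, Option.elim,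
    Pi.smul_apply, Pi.add_apply, smul_eq_mul, Finset.sum_apply, mul_add, mul_comm (u (some _))]
  field_simp

theorem rk {E : Type} [AddCommGroup E] [Module ℂ E] [FiniteDimensional ℂ E] {V : Submodule ℂ E}
    {A : E →ₗ[ℂ] ℂ} (h : Module.finrank ℂ V = n + 1) {w : E} (hw : w ∈ V) (hA : A w ≠ 0) :
    Module.finrank ℂ (V ⊓ LinearMap.ker A : Submodule ℂ E) = n := by
  have h1 := Module.Dual.finrank_ker_add_one_of_ne_zero (f := A.domRestrict V)
    fun k => hA (congr($k ⟨w, hw⟩))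
  rw [← Submodule.map_comap_subtype, Submodule.finrank_map_subtype_eq, ← LinearMap.ker_domRestrict]
  omega

variable {S : Type} [TopologicalSpace S] [ChartedSpace (Cm 1) S] {p : S} {f : S → X} {L : Bd S}
  {α : Chart n X → L.ι → S → Cm n}

theorem An.congr {g h : S → ℂ} (hg : An g p) (k : ∀ᶠ x in 𝓝 p, g x = h x) : An h p :=
  fun c hc => (hg c hc).congr ((c.tendsto_symm hc.2).eventually k)

variable [IsManifold 𝓘(ℂ, Cm n) ω X]

theorem ev_ne (hΦ : IsProjectiveImmersion (Cm n) Φ) (hi : (Φ x).rep i ≠ 0) :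
    ∀ᶠ y in 𝓝 x, (Φ y).rep i ≠ 0 := by
  filter_upwards [((chartAt (Cm n) x).continuousAt (mem_chart_source _ x)).eventually
    (P299G50.aff_holo hΦ (at_ch x) hi).1, (chartAt (Cm n) x).eventually_left_inverse
      (mem_chart_source _ x)] with y a b
  rwa [b] at a

theorem tan1 (hT : TAN) (hZ : IsSmoothVariety n Z) (hA : IsAnalytification n Z Φ) (he : At e x)
    (hi : (Φ x).rep i ≠ 0) (w : Fin (N + 1) → ℂ) :
    w ∈ tangent Z (Φ x) ↔ ∃ u, w = (Φ x).rep i • Tm Φ e i x *ᵥ u :=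
  ((hT n N Z X Φ hZ hA e x i he hi).1 w).trans
    ⟨fun ⟨κ, ξ, h⟩ => ⟨_, h.trans (Tm_mul hi fun k => k.elim κ ξ).symm⟩,
      fun ⟨u, h⟩ => ⟨_, _, h.trans (Tm_mul hi u)⟩⟩

theorem tan2 (hT : TAN) (hZ : IsSmoothVariety n Z) (hA : IsAnalytification n Z Φ) (he : At e x)
    (hi : (Φ x).rep i ≠ 0) (u : Option (Fin n) → ℂ) (h : Tm Φ e i x *ᵥ u = 0) : u = 0 := by
  obtain ⟨a, b⟩ := (hT n N Z X Φ hZ hA e x i he hi).2.1 _ _
    ((Tm_mul (e := e) hi u).symm.trans (by rw [h, smul_zero]))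
  ext k
  cases k
  exacts [a, congrFun b _]

theorem exA (hT : TAN) (hZ : IsSmoothVariety n Z) (hA : IsAnalytification n Z Φ)
    (hα : QuoC n f L α) : ∃ A : L.ι → S → (Fin (N + 1) → ℂ) →ₗ[ℂ] ℂ,
    (∀ a b c w, c ∈ L.U a → c ∈ L.U b → A a c w = L.g a b c * A b c w) ∧
    ∀ e i a c, At e (f c) → (Φ (f c)).rep i ≠ 0 → c ∈ L.U a → ∀ u,
      A a c ((Φ (f c)).rep i • Tm Φ e i (f c) *ᵥ u) = ext0 (α e a c) ⬝ᵥ u := by
  choose J hJ using fun x : X => Function.ne_iff.1 (Φ x).rep_nonzero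
  choose σ hσ using fun x : X => LinearMap.exists_leftInverse_of_injective
    ((Φ x).rep (J x) • (Tm Φ (chartAt (Cm n) x) (J x) x).mulVecLin) (LinearMap.ker_eq_bot'.2
      fun u h => tan2 hT hZ hA (at_ch x) (hJ x) u ((smul_eq_zero_iff_right (hJ x)).1 h))
  refine ⟨fun a c => dotProductBilin ℂ ℂ (ext0 (α (chartAt (Cm n) (f c)) a c)) ∘ₗ σ (f c),
    fun a b c w ha hb => ?_, fun e i a c he hi ha u => ?_⟩
  · change ext0 _ ⬝ᵥ _ = _ * (ext0 _ ⬝ᵥ _)
    rw [ext0_dot, ext0_dot, hα.fr _ a b c (at_ch _) ha hb, smul_dotProduct, smul_eq_mul]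
  obtain ⟨κ, h⟩ := (hT n N Z X Φ hZ hA e (f c) i he hi).2.2 _ _ (at_ch _) (hJ _)
    fun l => u (some l)
  have h1 := Tm_mul (e := chartAt (Cm n) (f c)) (hJ (f c)) fun k => k.elim (u none + κ)
    (jacM e (chartAt (Cm n) (f c)) (f c) *ᵥ fun l => u (some l))
  have h2 := congr($(hσ (f c)) fun k => k.elim (u none + κ)
    (jacM e (chartAt (Cm n) (f c)) (f c) *ᵥ fun l => u (some l)))
  change ext0 _ ⬝ᵥ σ _ _ = _
  rw [Tm_mul hi, h, ← add_assoc, ← add_smul]
  refine (congrArg (fun w => _ ⬝ᵥ σ _ w) h1.symm).trans ((congrArg (_ ⬝ᵥ ·) h2).trans ?_)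
  rw [ext0_dot, ext0_dot, hα.chg e _ a c he (at_ch _) ha, ← dotProduct_mulVec]
  rfl

variable [IsManifold 𝓘(ℂ, Cm 1) ω S]

theorem an_comp (hf : ContMDiff 𝓘(ℂ, Cm 1) 𝓘(ℂ, Cm n) ω f) (he : At e (f p)) {g : Cm n → ℂ}
    (hg : AnalyticAt ℂ g (e (f p))) : An (fun c => g (e (f c))) p := fun c hc => by
  have h1 : ContMDiffAt 𝓘(ℂ, Cm 1) 𝓘(ℂ, Cm n) ω (e ∘ f ∘ c.symm) (c p) :=
    (contMDiffAt_of_mem_maximalAtlas (IsManifold.subset_maximalAtlas he.1)
      (by rw [Function.comp_apply, hc.left_inv]; exact he.2)).comp _ ((hf _).comp _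
      (contMDiffAt_symm_of_mem_maximalAtlas (IsManifold.subset_maximalAtlas hc.1) hc.mem_target))
  refine AnalyticAt.fun_comp (g := g) (f := e ∘ f ∘ c.symm) ?_ h1.contDiffAt.analyticAt
  rwa [Function.comp_apply, Function.comp_apply, hc.left_inv]

theorem an_aff (hΦ : IsProjectiveImmersion (Cm n) Φ) (hf : ContMDiff 𝓘(ℂ, Cm 1) 𝓘(ℂ, Cm n) ω f)
    (hi : (Φ (f p)).rep i ≠ 0) (j : Fin (N + 1)) : An (fun c => aff i (Φ (f c)) j) p := by
  refine (an_comp hf (at_ch _) ((P299G50.aff_holo hΦ (at_ch _) hi).2 j).analyticAt).congr ?_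
  filter_upwards [hf.continuous.continuousAt.eventually
    ((chartAt (Cm n) (f p)).eventually_left_inverse (mem_chart_source _ _))] with c hc
  rw [hc]

theorem an_Tm (hΦ : IsProjectiveImmersion (Cm n) Φ) (hf : ContMDiff 𝓘(ℂ, Cm 1) 𝓘(ℂ, Cm n) ω f)
    (he : At e (f p)) (hi : (Φ (f p)).rep i ≠ 0) (j : Fin (N + 1)) (k : Option (Fin n)) :
    An (fun c => Tm Φ e i (f c) j k) p := by
  cases k with
  | none => exact an_aff hΦ hf hi j
  | some l =>
    have h := (AnalyticAt.pi fun j => ((P299G50.aff_holo hΦ he hi).2 j).analyticAt).fderiv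
    exact an_comp hf he (g := fun z => fderiv ℂ (fun z => aff i (Φ (e.symm z))) z
      (Pi.single l 1) j) (analyticAt_pi_iff.1 (((ContinuousLinearMap.apply ℂ (Fin (N + 1) → ℂ)
        (Pi.single l 1 : Cm n)).analyticAt _).comp h) j)

theorem an_plu (hΦ : IsProjectiveImmersion (Cm n) Φ) (hf : ContMDiff 𝓘(ℂ, Cm 1) 𝓘(ℂ, Cm n) ω f)
    (hα : QuoC n f L α) (he : At e (f p)) (hi : (Φ (f p)).rep i ≠ 0) {a : L.ι} (ha : p ∈ L.U a)
    (q : _) : An (fun c => plu (Tm Φ e i (f c)) (ext0 (α e a c)) q) p := An.det fun j k => by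
  by_cases h : j = q.2
  · simp only [updateRow_apply, if_pos h]
    cases k with
    | none => exact an_const 0
    | some l => exact fun c hc => analyticAt_pi_iff.1 (hα.hol e a p he ha c hc) l
  · simp only [updateRow_apply, if_neg h]
    exact an_Tm hΦ hf he hi _ _

end Vale.Agent.P280A.C66
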